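import Vale.Agent.P011.D4W.H684.Flip
import Vale.Agent.P011N.D1.D4Y.H691.Na

/-!
Version for big subgroups of `P011.D4W.H684.Flip`.
-/

open NumberField IsDedekindDomain Topology Filter

set_option linter.unusedSectionVars false

namespace Vale.Agent.P011.D4W

open Vale.Agent.P011.Arith Vale.Agent.P011.MPQ Vale.Agent.P011.D4 Vale.Agent.P011.D4.Oct
  Vale.Agent.P011.E6

open Vale.Agent.P011.D4X Vale.Agent.P011.D4X.H691 Vale.Agent.P011.D4Y

variable {k L E : Type} [Field k] [NumberField k] [Field L] [NumberField L] [Field E]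
  [Algebra k L] [Algebra k E] [Algebra L E] [IsScalarTower k L E] [NeZero (2 : E)]
  {ρ σ ι : E ≃ₐ[k] E} {α : E} {a b c : kˣ} {q : Lˣ} (H : HyI ρ σ ι α a b c q)

include H

/-- The congruence of a centraliser, from elements which change the class at one bad prime. -/
theorem flip_endB {b' c' : kˣ} {j l : Oct a b c} (h : Trip a b' c' gi j l)
    (hle : ∀ {z : ATI ρ σ ι α a b c q}, z ∈ stabI ρ σ ι α q h → kapI z ∈ PosC k L a →
      kapI z ∈ NV k a q → z ∈ H.NAB ⊔ stab0I ρ σ ι α a b c q)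
    (hu : ∀ v0 ∈ VB k a q, ∃ u : ATI ρ σ ι α a b c q, u ∈ stabI ρ σ ι α q h ∧
      u ∈ H.NAB ⊔ stab0I ρ σ ι α a b c q ∧ kapI u ∈ PosC k L a ∧
      ∀ v w, Bad a q v w → (kapI u ∈ NF (up L a) ⊔ LS (w.valuation L) ↔ v ≠ v0))
    {z : ATI ρ σ ι α a b c q} (hz : z ∈ stabI ρ σ ι α q h) (hP : kapI z ∈ PosC k L a) :
    z ∈ H.NAB ⊔ stab0I ρ σ ι α a b c q := by
  classical
  have kapI_one : kapI (1 : ATI ρ σ ι α a b c q) = 1 := map_one (kapHomI ρ σ ι α a b c q)
  have key : ∀ T : Finset (HeightOneSpectrum (𝓞 k)), (∀ v ∈ T, v ∈ VB k a q) →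
      ∃ u : ATI ρ σ ι α a b c q, u ∈ stabI ρ σ ι α q h ∧
        u ∈ H.NAB ⊔ stab0I ρ σ ι α a b c q ∧ kapI u ∈ PosC k L a ∧
        ∀ v w, Bad a q v w → (v ∈ T → kapI (z * u) ∈ NF (up L a) ⊔ LS (w.valuation L)) ∧
          (v ∉ T → kapI u ∈ NF (up L a) ⊔ LS (w.valuation L)) := by
    intro T
    induction T using Finset.induction_on with
    | empty =>
      intro _
      refine ⟨1, Subgroup.one_mem _, Subgroup.one_mem _, ?_, fun v w _ => ⟨fun h => ?_, fun _ => ?_⟩⟩
      · rw [kapI_one]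
        exact Subgroup.one_mem _
      · exact absurd h (Finset.notMem_empty v)
      · rw [kapI_one]
        exact Subgroup.one_mem _
    | insert v0 T hv0 ih =>
      intro hT
      obtain ⟨u, u1, u2, u3, u4⟩ := ih fun v hv => hT v (Finset.mem_insert_of_mem hv)
      obtain ⟨w0, hw0⟩ := hT v0 (Finset.mem_insert_self _ _)
      obtain ⟨y, y1, y2, y3, y4⟩ := hu v0 ⟨w0, hw0⟩
      by_cases hc : kapI (z * u) ∈ NF (up L a) ⊔ LS (w0.valuation L)
      · refine ⟨u, u1, u2, u3, fun v w hb => ⟨fun hv => ?_, fun hv => ?_⟩⟩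
        · rcases Finset.mem_insert.1 hv with rfl | hv
          · rw [H183.bad_unique H.h3 hb hw0]
            exact hc
          · exact (u4 v w hb).1 hv
        · exact (u4 v w hb).2 fun hv' => hv (Finset.mem_insert_of_mem hv')
      · refine ⟨u * y, Subgroup.mul_mem _ u1 y1, Subgroup.mul_mem _ u2 y2, ?_,
          fun v w hb => ⟨fun hv => ?_, fun hv => ?_⟩⟩
        · rw [kapI_mul]
          exact Subgroup.mul_mem _ u3 y3
        · rw [← mul_assoc, kapI_mul]
          rcases Finset.mem_insert.1 hv with rfl | hv1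
          · rw [H183.bad_unique H.h3 hb hw0]
            exact H183.mul_mem_of_not hc fun h' => (y4 v w0 hw0).1 h' rfl
          · refine Subgroup.mul_mem _ ((u4 v w hb).1 hv1) ((y4 v w hb).2 fun h' => hv0 ?_)
            rw [← h']
            exact hv1
        · rw [kapI_mul]
          refine Subgroup.mul_mem _ ((u4 v w hb).2 fun hv' => hv (Finset.mem_insert_of_mem hv'))
            ((y4 v w hb).2 ?_)
          rintro rfl
          exact hv (Finset.mem_insert_self _ _)
  obtain ⟨u, u1, u2, u3, u4⟩ := key (VB_finite (k := k) a q).toFinset fun v hv => by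
    simpa using hv
  have h1 : z * u ∈ H.NAB ⊔ stab0I ρ σ ι α a b c q := by
    refine hle (Subgroup.mul_mem _ hz u1) ?_ fun v w hb => (u4 v w hb).1 ?_
    · rw [kapI_mul]
      exact Subgroup.mul_mem _ hP u3
    · simpa using ⟨w, hb⟩
  have h2 : z = z * u * u⁻¹ := by group
  rw [h2]
  exact Subgroup.mul_mem _ h1 (Subgroup.inv_mem _ u2)

end Vale.Agent.P011.D4W
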