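import Vale.Agent.P011.D4W.H684.StepO
import Vale.Agent.P011N.D1.D4Y.H691.Na

/-!
Version for big subgroups of `P011.D4W.H684.StepO`.
-/

open NumberField IsDedekindDomain Topology Filter

set_option linter.unusedSectionVars false

namespace Vale.Agent.P011.D4W

open Vale.Agent.P011.Arith Vale.Agent.P011.MPQ Vale.Agent.P011.D4 Vale.Agent.P011.D4.Oct
  Vale.Agent.P011.E6

open Vale.Agent.P011.D4X Vale.Agent.P011.D4X.H691 Vale.Agent.P011.D4Y Vale.Agent.P011.D4Y.H659

open Vale.Agent.P011.D4Y.H408 Vale.Agent.P011.D4X.H862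

section nrm

variable {k L E : Type} [Field k] [NumberField k] [Field L] [NumberField L] [Field E]
  [NumberField E] [Algebra k L] [Algebra k E] [Algebra L E] [IsScalarTower k L E]
  {ρ σ ι : E ≃ₐ[k] E} {α : E} {a b c : kˣ} {q : Lˣ} (H : HyI ρ σ ι α a b c q)

include H

variable [NeZero (2 : E)]

/-- The congruence of the centralisers, for the subgroup they generate. -/
theorem stabs_leB
    (hle : ∀ {b' c' : kˣ} {j l : Oct a b c} (h : Trip a b' c' gi j l) {z : ATI ρ σ ι α a b c q},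
      z ∈ stabI ρ σ ι α q h → kapI z ∈ PosC k L a → kapI z ∈ NV k a q →
        z ∈ H.NAB ⊔ stab0I ρ σ ι α a b c q) :
    stabsPI (P0 k a q) ρ σ ι α a b c q ≤ H.NAB ⊔ stab0I ρ σ ι α a b c q := by
  rw [stabsPI, Subgroup.closure_le]
  rintro z ⟨hP, b', c', j, l, h, hz⟩
  exact hle h hz hP.1 hP.2

/-- **Step O.** The elements of the adjoint group which move the standard vector to a vector close
to its line lie in `NA ⊔ stab0I`, if their multiplier is positive and is a norm at the bad
primes. -/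
theorem mem_of_nearB
    (hle : ∀ {b' c' : kˣ} {j l : Oct a b c} (h : Trip a b' c' gi j l) {z : ATI ρ σ ι α a b c q},
      z ∈ stabI ρ σ ι α q h → kapI z ∈ PosC k L a → kapI z ∈ NV k a q →
        z ∈ H.NAB ⊔ stab0I ρ σ ι α a b c q)
    {X : Type} {F : Filter X} {g : X → ATI ρ σ ι α a b c q} {t : X → E}
    (h : AO (SV E (VB k a q)) F (fun n => t n • (g n).1 (ep α * oup E (gl : Oct a b c)))
      (ep α * oup E (gl : Oct a b c))) :
    ∀ᶠ n in F, kapI (g n) ∈ P0 k a q → g n ∈ H.NAB ⊔ stab0I ρ σ ι α a b c q := by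
  have hne : (ep α * oup E (gl : Oct a b c) : OctL E a b c) ≠ 0 := (pt_std H).1
  have h1 := (tendsto_na_of h).eventually (near_PPI (c := c) H)
  have h2 : ∀ᶠ n in F, t n ≠ 0 := by
    obtain ⟨p, hp⟩ := SV_nonempty (E := E) (VB k a q)
    have h3 := ((h.2.1 : AE _ F _ _).tendsto hp).eventually_ne ((p.ne_zero_iff).mpr (by
      rw [← D4X.H862.vl_eq]
      change ((1 : E) + 0) / 2 ≠ 0
      rw [add_zero]
      exact one_div_ne_zero (NeZero.ne 2)))
    filter_upwards [h3] with n hn h0
    rw [h0, zero_smul] at hn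
    exact hn (map_zero p)
  filter_upwards [h1, h2] with n g1 g2 hκ
  have h3 : Pt ρ (t n • (g n).1 (ep α * oup E (gl : Oct a b c))) :=
    (pt_ATI (g n) (pt_std H)).smul g2
  have h4 : invo ι (t n • (g n).1 (ep α * oup E (gl : Oct a b c))) =
      (-(ι (t n) / t n)) • (t n • (g n).1 (ep α * oup E (gl : Oct a b c))) := by
    have h5 : (g n).1 (invo ι (ep α * oup E (gl : Oct a b c))) =
      invo ι ((g n).1 (ep α * oup E (gl : Oct a b c))) := (g n).2.2.2 _
    rw [invo_smul, ← h5, Im_std H, map_smul, smul_smul, smul_smul]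
    congr 1
    field_simp
  exact stabs_leB H hle (mem_stabs_of_PPI H hκ (PPI_of_smul g2 (g1 h3 ⟨_, h4⟩)))

end nrm

end Vale.Agent.P011.D4W
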